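import Claimed.Agent.R152.B.Simple.Quot

/-!
# Row 152, MODULE B (bridge): f.p. + 2-transitive + f.g. stabiliser  ==>  embeds in a f.p. simple group

Interface to modules A, C of row 152 (S0320).  Blueprint: `docs/R152_B.md` (branch `helper22`), sec. 0, 7.
-/

namespace Claimed.Agent.R152.B

universe u

/-- (S1)-(S4) for `S = D ⧸ L`, `s0 = L`, `t0 = j L`.
(S2): `s = xL ≠ t = yL`, `x⁻¹ y = a j b` with `a, b ∈ L` (`h2`), `c := a⁻¹ x⁻¹`.
(S3): `c` acts trivially iff `x⁻¹ c x ∈ L` for all `x` (`hcore` with `x⁻¹`).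
`s0 ≠ t0`: otherwise `j ∈ L` and `D = L` by `h2`, contradicting `h3`.
(S4): pick `s2 = gL ∉ {s0,t0}` (`h3`); by (S2) twice there is `c` with `c s2 = s2`, `c s0 = t0`; then `j⁻¹ c ∈ L`, so `j` is a product of two elements
fixing a point; with `h2` this gives everything (`L` fixes `s0`). -/
theorem hyp_of_bridge {D : Type u} [Group D] (L : Subgroup D) (j : D)
    (h2 : ∀ g : D, g ∈ L ∨ ∃ a ∈ L, ∃ b ∈ L, g = a * j * b)
    (hcore : ∀ g : D, (∀ x : D, x * g * x⁻¹ ∈ L) → g = 1)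
    (h3 : ∃ g : D, g ∉ L ∧ j⁻¹ * g ∉ L) :
    Hyp D (D ⧸ L) ((1 : D) : D ⧸ L) ((j : D) : D ⧸ L) := by
  have hsm : ∀ c x : D, c • ((x : D) : D ⧸ L) = ((c * x : D) : D ⧸ L) := fun _ _ => rfl
  have hne : ((1 : D) : D ⧸ L) ≠ ((j : D) : D ⧸ L) := by
    intro h
    have hj : j ∈ L := by
      have := QuotientGroup.eq.1 h
      simpa using this
    obtain ⟨g, hg, -⟩ := h3
    rcases h2 g with h | ⟨a, ha, b, hb, rfl⟩
    · exact hg h
    · exact hg (L.mul_mem (L.mul_mem ha hj) hb)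
  have htwo : ∀ s t : D ⧸ L, s ≠ t →
      ∃ c : D, c • s = ((1 : D) : D ⧸ L) ∧ c • t = ((j : D) : D ⧸ L) := by
    intro s t
    induction s using QuotientGroup.induction_on with
    | H x =>
    induction t using QuotientGroup.induction_on with
    | H y =>
    intro hst
    have hxy : x⁻¹ * y ∉ L := fun h => hst (QuotientGroup.eq.2 h)
    rcases h2 (x⁻¹ * y) with h | ⟨a, ha, b, hb, hab⟩
    · exact absurd h hxy
    · refine ⟨a⁻¹ * x⁻¹, ?_, ?_⟩
      · rw [hsm, QuotientGroup.eq]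
        have : (a⁻¹ * x⁻¹ * x)⁻¹ * 1 = a := by group
        rw [this]; exact ha
      · rw [hsm, QuotientGroup.eq]
        have : (a⁻¹ * x⁻¹ * y)⁻¹ * j = b⁻¹ := by
          have h1 : a⁻¹ * x⁻¹ * y = a⁻¹ * (x⁻¹ * y) := by group
          rw [h1, hab]; group
        rw [this]; exact L.inv_mem hb
  refine ⟨hne, htwo, ?_, ?_⟩
  · intro c hc
    apply hcore
    intro x
    have h := hc ((x⁻¹ : D) : D ⧸ L)
    rw [hsm, QuotientGroup.eq] at h
    have h' := L.inv_mem h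
    have : ((c * x⁻¹)⁻¹ * x⁻¹)⁻¹ = x * c * x⁻¹ := by group
    rwa [this] at h'
  · rw [eq_top_iff]
    intro g _
    set K := Subgroup.closure {c : D | ∃ s : D ⧸ L, c • s = s} with hK
    have hLK : ∀ a ∈ L, a ∈ K := by
      intro a ha
      apply Subgroup.subset_closure
      refine ⟨((1 : D) : D ⧸ L), ?_⟩
      rw [hsm, QuotientGroup.eq]
      have : (a * 1)⁻¹ * 1 = a⁻¹ := by group
      rw [this]; exact L.inv_mem ha
    have hjK : j ∈ K := by
      obtain ⟨g0, hg0, hg0'⟩ := h3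
      have hs0 : ((g0 : D) : D ⧸ L) ≠ ((1 : D) : D ⧸ L) := by
        intro h
        have := QuotientGroup.eq.1 h.symm
        exact hg0 (by simpa using this)
      have ht0 : ((g0 : D) : D ⧸ L) ≠ ((j : D) : D ⧸ L) := by
        intro h
        exact hg0' (QuotientGroup.eq.1 h.symm)
      obtain ⟨c1, h11, h12⟩ := htwo _ _ hs0
      obtain ⟨c2, h21, h22⟩ := htwo _ _ ht0
      have hc : c2⁻¹ * c1 ∈ K := by
        apply Subgroup.subset_closure
        refine ⟨((g0 : D) : D ⧸ L), ?_⟩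
        rw [mul_smul, h11, inv_smul_eq_iff, h21]
      have hc' : (c2⁻¹ * c1) • ((1 : D) : D ⧸ L) = ((j : D) : D ⧸ L) := by
        rw [mul_smul, h12, inv_smul_eq_iff, h22]
      rw [hsm, QuotientGroup.eq] at hc'
      have := K.mul_mem hc (hLK _ hc')
      have e : c2⁻¹ * c1 * ((c2⁻¹ * c1 * 1)⁻¹ * j) = j := by group
      rwa [e] at this
    rcases h2 g with h | ⟨a, ha, b, hb, rfl⟩
    · exact hLK _ h
    · exact K.mul_mem (K.mul_mem (hLK _ ha) hjK) (hLK _ hb)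

theorem stabilizer_one_coset {D : Type u} [Group D] (L : Subgroup D) :
    MulAction.stabilizer D ((1 : D) : D ⧸ L) = L := by
  ext g
  rw [MulAction.mem_stabilizer_iff]
  have hsm : g • ((1 : D) : D ⧸ L) = ((g * 1 : D) : D ⧸ L) := rfl
  rw [hsm, QuotientGroup.eq]
  have : (g * 1)⁻¹ * 1 = g⁻¹ := by group
  rw [this, inv_mem_iff]

/-- **MODULE B.** -/
theorem bridge {D : Type u} [Group D] [Group.IsFinitelyPresented D] (L : Subgroup D) (hL : L.FG)
    (j : D) (h2 : ∀ g : D, g ∈ L ∨ ∃ a ∈ L, ∃ b ∈ L, g = a * j * b)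
    (hcore : ∀ g : D, (∀ x : D, x * g * x⁻¹ ∈ L) → g = 1)
    (h3 : ∃ g : D, g ∉ L ∧ j⁻¹ * g ∉ L) :
    ∃ (T : Type u) (_ : Group T), Group.IsFinitelyPresented T ∧ IsSimpleGroup T ∧
      ∃ f : D →* T, Function.Injective f := by
  have H := hyp_of_bridge L j h2 hcore h3
  have hL' : (MulAction.stabilizer D ((1 : D) : D ⧸ L)).FG := by
    rw [stabilizer_one_coset]; exact hL
  exact ⟨Gam D (D ⧸ L), inferInstance, Gam_fp H hL', Gam_simple H, twGam D (D ⧸ L),
    twGam_injective H⟩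

end Claimed.Agent.R152.B
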