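/-
Row 152, module B.  Blueprint `origin/helper22:docs/R152_B.md` sec. 1, items G3, G5.
-/
import Mathlib

set_option autoImplicit false

namespace Claimed.Agent.R152.B

universe u v w

/-- The forward map `CoprodI H →* H 0 ∗ CoprodI (tail H)`. -/
noncomputable def coprodISuccTo {n : ℕ} (H : Fin (n + 1) → Type u) [∀ i, Group (H i)] :
    Monoid.CoprodI H →* Monoid.Coprod (H 0) (Monoid.CoprodI (fun i : Fin n => H i.succ)) :=
  Monoid.CoprodI.lift (fun i =>
    Fin.cases (motive := fun i => H i →*
        Monoid.Coprod (H 0) (Monoid.CoprodI (fun i : Fin n => H i.succ)))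
      Monoid.Coprod.inl
      (fun j => Monoid.Coprod.inr.comp
        (Monoid.CoprodI.of (M := fun i : Fin n => H i.succ) (i := j))) i)

/-- The backward map `H 0 ∗ CoprodI (tail H) →* CoprodI H`. -/
noncomputable def coprodISuccFrom {n : ℕ} (H : Fin (n + 1) → Type u) [∀ i, Group (H i)] :
    Monoid.Coprod (H 0) (Monoid.CoprodI (fun i : Fin n => H i.succ)) →* Monoid.CoprodI H :=
  Monoid.Coprod.lift (Monoid.CoprodI.of (M := H) (i := 0))
    (Monoid.CoprodI.lift (M := fun i : Fin n => H i.succ)
      (fun j => Monoid.CoprodI.of (M := H) (i := j.succ)))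

theorem coprodISuccFrom_comp_to {n : ℕ} (H : Fin (n + 1) → Type u) [∀ i, Group (H i)] :
    (coprodISuccFrom H).comp (coprodISuccTo H) = MonoidHom.id _ := by
  apply Monoid.CoprodI.ext_hom
  intro i
  refine Fin.cases ?_ (fun j => ?_) i
  · ext x
    simp [coprodISuccFrom, coprodISuccTo]
  · ext x
    simp [coprodISuccFrom, coprodISuccTo]

theorem coprodISuccTo_comp_from {n : ℕ} (H : Fin (n + 1) → Type u) [∀ i, Group (H i)] :
    (coprodISuccTo H).comp (coprodISuccFrom H) = MonoidHom.id _ := by
  apply Monoid.Coprod.hom_ext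
  · ext x
    simp [coprodISuccFrom, coprodISuccTo]
  · apply Monoid.CoprodI.ext_hom
    intro j
    ext x
    simp [coprodISuccFrom, coprodISuccTo]

/-- `CoprodI H ≃* H 0 ∗ CoprodI (tail H)`. -/
noncomputable def coprodISuccEquiv {n : ℕ} (H : Fin (n + 1) → Type u) [∀ i, Group (H i)] :
    Monoid.CoprodI H ≃* Monoid.Coprod (H 0) (Monoid.CoprodI (fun i : Fin n => H i.succ)) :=
  MonoidHom.toMulEquiv (coprodISuccTo H) (coprodISuccFrom H)
    (coprodISuccFrom_comp_to H) (coprodISuccTo_comp_from H)

theorem coprodI_fin_zero_subsingleton (H : Fin 0 → Type u) [∀ i, Group (H i)] :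
    Subsingleton (Monoid.CoprodI H) := by
  refine ⟨fun a b => ?_⟩
  have key : ∀ x : Monoid.CoprodI H, x = 1 := by
    intro x
    induction x using Monoid.CoprodI.induction_on with
    | one => rfl
    | of m => exact Fin.elim0 ‹_›
    | mul x y hx hy => rw [hx, hy, one_mul]
  rw [key a, key b]

/-- G3: finite free products.  (Induction on `n` with the Mathlib instance for `Monoid.Coprod`, after
constructing `CoprodI H ≃* Coprod (H 0) (CoprodI (fun i => H i.succ))` by universal properties; or directly.) -/
theorem fp_coprodI {n : ℕ} (H : Fin n → Type u) [∀ i, Group (H i)]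
    [∀ i, Group.IsFinitelyPresented (H i)] :
    Group.IsFinitelyPresented (Monoid.CoprodI H) := by
  induction n with
  | zero =>
    haveI := coprodI_fin_zero_subsingleton H
    infer_instance
  | succ n ih =>
    haveI : Group.IsFinitelyPresented (Monoid.CoprodI (fun i : Fin n => H i.succ)) :=
      ih (fun i : Fin n => H i.succ)
    exact Group.IsFinitelyPresented.equiv (coprodISuccEquiv H).symm

/-- G5: packaging. -/
theorem fp_coprodI_quot {n : ℕ} (H : Fin n → Type u) [∀ i, Group (H i)]
    [∀ i, Group.IsFinitelyPresented (H i)] (R : Set (Monoid.CoprodI H)) (hR : R.Finite) :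
    Group.IsFinitelyPresented (Monoid.CoprodI H ⧸ Subgroup.normalClosure R) := by
  have := fp_coprodI H
  exact Group.IsFinitelyPresented.quotient _ ⟨R, hR, rfl⟩

end Claimed.Agent.R152.B
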