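/-
Row 152, module B.  Blueprint `origin/helper22:docs/R152_B.md` sec. 1, item G4.
-/
import Mathlib

set_option autoImplicit false

namespace Claimed.Agent.R152.B

universe u v w

/-- G4: `E` is finitely generated if the kernel of a map to a finite group is contained in the image of a
finitely generated group.  (Generators: images of generators of `N` and one preimage for every element of `p.range`.) -/
theorem fg_of_exact_finite {N : Type u} {E : Type v} {Q : Type w} [Group N] [Group E] [Group Q]
    [Group.FG N] [Finite Q] (i : N →* E) (p : E →* Q) (hex : p.ker ≤ i.range) : Group.FG E := by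
  classical
  obtain ⟨S, hS⟩ := (Group.fg_iff (G := N)).1 inferInstance
  obtain ⟨hS, hSfin⟩ := hS
  -- a section of `p` on its range
  have hsec : ∀ q : p.range, ∃ e : E, p e = q := fun q => q.2
  choose σ hσ using hsec
  have hTfin : (Set.range σ).Finite := Set.finite_range σ
  refine (Group.fg_iff (G := E)).2 ⟨i '' S ∪ Set.range σ, ?_, (hSfin.image _).union hTfin⟩
  rw [eq_top_iff]
  intro e _
  have hrange : i.range ≤ Subgroup.closure (i '' S ∪ Set.range σ) := by
    rw [MonoidHom.range_eq_map, ← hS, MonoidHom.map_closure]
    exact Subgroup.closure_mono Set.subset_union_left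
  set t : E := σ ⟨p e, ⟨e, rfl⟩⟩ with ht
  have hpt : p t = p e := hσ ⟨p e, ⟨e, rfl⟩⟩
  have hker : e * t⁻¹ ∈ p.ker := by
    rw [MonoidHom.mem_ker, map_mul, map_inv, hpt, mul_inv_cancel]
  have h1 : e * t⁻¹ ∈ Subgroup.closure (i '' S ∪ Set.range σ) := hrange (hex hker)
  have h2 : t ∈ Subgroup.closure (i '' S ∪ Set.range σ) :=
    Subgroup.subset_closure (Or.inr ⟨_, rfl⟩)
  have := Subgroup.mul_mem _ h1 h2
  simpa using this

end Claimed.Agent.R152.B
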