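/-
Row 152, module B.  Blueprint `origin/helper22:docs/R152_B.md` sec. 1, item G1 (P. Hall):
an extension of a finitely presented group by a finitely presented group is finitely presented.

PAPER PROOF.  N = <X|R>, Q = <Y|S'>, lifts y~ in G of the generators of Q.  Presentation
  G^ = < X u Y | R,  s(Y) = w_s(X) (s in S'),  y x y^-1 = w_{y,x}(X),  y^-1 x y = w'_{y,x}(X) >  -> G (onto).
N^ = <X> is normal in G^;  N -> N^ -> N is the identity, so N^ = N;  G^/N^ is a quotient of Q mapping onto Q by the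
identity on generators, so G^/N^ = Q;  an element of the kernel of G^ -> G lies in N^ and dies in N, so it is 1.
Mathlib API: `Mathlib/GroupTheory/FinitelyPresentedGroup.lean` (`of_surjective`, `quotient`, `equiv`,
`exists_mulEquiv_presentedGroup`, instances for `FreeGroup`, `PresentedGroup`, `Monoid.Coprod`, finite groups).
-/
import Mathlib

set_option autoImplicit false

namespace Claimed.Agent.R152.B

universe u v w

/-- The range of a hom out of a free group lies in a subgroup as soon as the generators do. -/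
theorem fpExt_range_le {α : Type*} {Γ : Type*} [Group Γ] (h : FreeGroup α →* Γ) (C : Subgroup Γ)
    (hC : ∀ a, h (FreeGroup.of a) ∈ C) : h.range ≤ C := by
  rw [MonoidHom.range_eq_map, ← FreeGroup.closure_range_of, MonoidHom.map_closure,
    Subgroup.closure_le]
  rintro _ ⟨_, ⟨a, rfl⟩, rfl⟩
  exact hC a

/-- Abstract kernel computation. -/
theorem fpExt_ker_le {N G Q Γ F : Type*} [Group N] [Group G] [Group Q] [Group Γ] [Group F]
    (i : N →* G) (p : G →* Q) (hi : Function.Injective i) (hpi : ∀ n, p (i n) = 1)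
    (a : N →* Γ) (b : F →* Γ) (f : Γ →* G) (φQ : F →* Q)
    (hfa : ∀ n, f (a n) = i n) (hfb : ∀ w, p (f (b w)) = φQ w)
    (hgen : a.range ⊔ b.range = ⊤)
    (K : Subgroup Γ) [K.Normal]
    (hM : (a.range ⊔ K).Normal)
    (hker : ∀ w, φQ w = 1 → b w ∈ a.range ⊔ K)
    (hK : K ≤ f.ker) : f.ker ≤ K := by
  intro γ hγ
  rw [MonoidHom.mem_ker] at hγ
  -- decomposition of elements of `M`
  have hMdec : ∀ m ∈ a.range ⊔ K, ∃ n : N, ∃ k ∈ K, m = a n * k := by
    intro m hm
    rw [Subgroup.mem_sup_of_normal_right] at hm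
    obtain ⟨x, ⟨n, rfl⟩, k, hk, rfl⟩ := hm
    exact ⟨n, k, hk, rfl⟩
  have hfK : ∀ k ∈ K, f k = 1 := fun k hk => hK hk
  have hγtop : γ ∈ (a.range ⊔ K) ⊔ b.range := by
    have h1 : a.range ⊔ b.range ≤ (a.range ⊔ K) ⊔ b.range :=
      sup_le_sup_right le_sup_left _
    exact h1 (hgen ▸ Subgroup.mem_top γ)
  rw [Subgroup.mem_sup_of_normal_left] at hγtop
  obtain ⟨m, hm, _, ⟨w, rfl⟩, rfl⟩ := hγtop
  obtain ⟨n, k, hk, rfl⟩ := hMdec m hm
  have hw : φQ w = 1 := by
    have h2 := congrArg p hγ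
    rw [map_mul, map_mul, map_mul, map_mul, hfa, hfK k hk, hpi, hfb] at h2
    simpa using h2
  have hmem : a n * k * b w ∈ a.range ⊔ K := mul_mem hm (hker w hw)
  obtain ⟨n', k', hk', he⟩ := hMdec _ hmem
  rw [he] at hγ ⊢
  rw [map_mul, hfa, hfK k' hk', mul_one] at hγ
  have hn' : n' = 1 := hi (by rw [hγ, map_one])
  rw [hn', map_one, one_mul]
  exact hk'

/-- Normality of `range a ⊔ K` from conjugation relations on generators. -/
theorem fpExt_normal {N Γ : Type*} {α β : Type*} [Group N] [Group Γ]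
    (φN : FreeGroup α →* N) (hφN : Function.Surjective φN)
    (a : N →* Γ) (b : FreeGroup β →* Γ)
    (hgen : a.range ⊔ b.range = ⊤)
    (K : Subgroup Γ) [K.Normal]
    (h1 : ∀ y j, b (FreeGroup.of y) * a (φN (FreeGroup.of j)) * (b (FreeGroup.of y))⁻¹
      ∈ a.range ⊔ K)
    (h2 : ∀ y j, (b (FreeGroup.of y))⁻¹ * a (φN (FreeGroup.of j)) * b (FreeGroup.of y)
      ∈ a.range ⊔ K) : (a.range ⊔ K).Normal := by
  set M : Subgroup Γ := a.range ⊔ K with hMdef
  have harange : a.range = (a.comp φN).range := by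
    rw [MonoidHom.range_comp, MonoidHom.range_eq_top.mpr hφN, ← MonoidHom.range_eq_map]
  -- conjugation by `g` maps `M` into `M` as soon as it does so on generators
  have hconj : ∀ g : Γ, (∀ j, g * a (φN (FreeGroup.of j)) * g⁻¹ ∈ M) →
      ∀ m ∈ M, g * m * g⁻¹ ∈ M := by
    intro g hg
    have hA : a.range ≤ M.comap (MulAut.conj g).toMonoidHom := by
      rw [harange]
      refine fpExt_range_le _ _ ?_
      intro j
      rw [Subgroup.mem_comap]
      simpa using hg j
    have hKK : K ≤ M.comap (MulAut.conj g).toMonoidHom := by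
      intro k hk
      rw [Subgroup.mem_comap]
      have : g * k * g⁻¹ ∈ K := ‹K.Normal›.conj_mem k hk g
      exact (le_sup_right : K ≤ a.range ⊔ K) (by simpa using this)
    have hle : M ≤ M.comap (MulAut.conj g).toMonoidHom := sup_le hA hKK
    intro m hm
    have := hle hm
    rw [Subgroup.mem_comap] at this
    simpa using this
  have hb : b.range ≤ Subgroup.normalizer (M : Set Γ) := by
    refine fpExt_range_le _ _ ?_
    intro y
    rw [Subgroup.mem_normalizer_iff]
    intro m
    constructor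
    · exact hconj _ (h1 y) m
    · intro hm
      have := hconj (b (FreeGroup.of y))⁻¹ (by simpa using h2 y) _ hm
      simpa [mul_assoc] using this
  have ha : a.range ≤ Subgroup.normalizer (M : Set Γ) :=
    le_trans le_sup_left Subgroup.le_normalizer
  have htop : Subgroup.normalizer (M : Set Γ) = ⊤ := by
    rw [eq_top_iff, ← hgen]
    exact sup_le ha hb
  exact Subgroup.normalizer_eq_top_iff.mp htop

/-- G1 (P. Hall), exact-sequence form. -/
theorem fp_of_exact {N : Type u} {G : Type v} {Q : Type w} [Group N] [Group G] [Group Q]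
    [Group.IsFinitelyPresented N] [Group.IsFinitelyPresented Q]
    (i : N →* G) (p : G →* Q) (hi : Function.Injective i) (hp : Function.Surjective p)
    (hex : i.range = p.ker) : Group.IsFinitelyPresented G := by
  obtain ⟨nN, φN, hφN, -⟩ := Group.IsFinitelyPresented.out (G := N)
  obtain ⟨nQ, φQ, hφQ, S', hS'fin, hS'⟩ := Group.IsFinitelyPresented.out (G := Q)
  have hpi : ∀ n, p (i n) = 1 := by
    intro n
    have : i n ∈ p.ker := hex ▸ (⟨n, rfl⟩ : i n ∈ i.range)
    exact this
  have hkerp : ∀ g, p g = 1 → ∃ n, i n = g := by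
    intro g hg
    have : g ∈ i.range := hex ▸ (hg : g ∈ p.ker)
    exact this
  choose ylift hylift using fun j : Fin nQ => hp (φQ (FreeGroup.of j))
  set ψ : FreeGroup (Fin nQ) →* G := FreeGroup.lift ylift with hψ
  have hpψ : ∀ w, p (ψ w) = φQ w := by
    have : p.comp ψ = φQ := by
      ext j
      simp [hψ, hylift]
    intro w
    exact DFunLike.congr_fun this w
  let a : N →* Monoid.Coprod N (FreeGroup (Fin nQ)) := Monoid.Coprod.inl
  let b : FreeGroup (Fin nQ) →* Monoid.Coprod N (FreeGroup (Fin nQ)) := Monoid.Coprod.inr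
  let f : Monoid.Coprod N (FreeGroup (Fin nQ)) →* G := Monoid.Coprod.lift i ψ
  have hfa : ∀ n, f (a n) = i n := fun n => Monoid.Coprod.lift_apply_inl _ _ _
  have hfb' : ∀ w, f (b w) = ψ w := fun w => Monoid.Coprod.lift_apply_inr _ _ _
  have hfb : ∀ w, p (f (b w)) = φQ w := fun w => by rw [hfb', hpψ]
  have hgen : a.range ⊔ b.range = ⊤ := Monoid.Coprod.range_inl_sup_range_inr
  -- surjectivity
  have hsurj : Function.Surjective f := by
    intro g
    obtain ⟨w, hw⟩ := hφQ (p g)
    obtain ⟨n, hn⟩ := hkerp (g * (ψ w)⁻¹) (by rw [map_mul, map_inv, hpψ, hw, mul_inv_cancel])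
    refine ⟨a n * b w, ?_⟩
    rw [map_mul, hfa, hfb', hn, inv_mul_cancel_right]
  -- the relators
  have hν : ∀ s : S', ∃ n, i n = ψ s := by
    intro s
    refine hkerp _ ?_
    rw [hpψ]
    have : (s : FreeGroup (Fin nQ)) ∈ φQ.ker := hS' ▸ Subgroup.subset_normalClosure s.2
    exact this
  choose ν hνs using hν
  have hc1 : ∀ (y : Fin nQ) (j : Fin nN), ∃ n, i n =
      ψ (FreeGroup.of y) * i (φN (FreeGroup.of j)) * (ψ (FreeGroup.of y))⁻¹ := by
    intro y j
    refine hkerp _ ?_
    rw [map_mul, map_mul, hpi, map_inv, mul_one, mul_inv_cancel]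
  have hc2 : ∀ (y : Fin nQ) (j : Fin nN), ∃ n, i n =
      (ψ (FreeGroup.of y))⁻¹ * i (φN (FreeGroup.of j)) * ψ (FreeGroup.of y) := by
    intro y j
    refine hkerp _ ?_
    rw [map_mul, map_mul, hpi, map_inv, mul_one, inv_mul_cancel]
  choose c1 hc1s using hc1
  choose c2 hc2s using hc2
  let t1 : S' → Monoid.Coprod N (FreeGroup (Fin nQ)) := fun s => b s * (a (ν s))⁻¹
  let t2 : Fin nQ × Fin nN → Monoid.Coprod N (FreeGroup (Fin nQ)) := fun yj =>
    b (FreeGroup.of yj.1) * a (φN (FreeGroup.of yj.2)) * (b (FreeGroup.of yj.1))⁻¹ *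
      (a (c1 yj.1 yj.2))⁻¹
  let t3 : Fin nQ × Fin nN → Monoid.Coprod N (FreeGroup (Fin nQ)) := fun yj =>
    (b (FreeGroup.of yj.1))⁻¹ * a (φN (FreeGroup.of yj.2)) * b (FreeGroup.of yj.1) *
      (a (c2 yj.1 yj.2))⁻¹
  let T : Set (Monoid.Coprod N (FreeGroup (Fin nQ))) := Set.range t1 ∪ (Set.range t2 ∪ Set.range t3)
  have hTfin : T.Finite := by
    have : Finite S' := hS'fin
    exact (Set.finite_range t1).union ((Set.finite_range t2).union (Set.finite_range t3))
  let K : Subgroup (Monoid.Coprod N (FreeGroup (Fin nQ))) := Subgroup.normalClosure T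
  have hKn : K.Normal := Subgroup.normalClosure_normal
  have hTK : T ⊆ K := Subgroup.subset_normalClosure
  have hK : K ≤ f.ker := by
    refine Subgroup.normalClosure_le_normal ?_
    rintro _ (⟨s, rfl⟩ | ⟨yj, rfl⟩ | ⟨yj, rfl⟩)
    · show f (b s * (a (ν s))⁻¹) = 1
      rw [map_mul, map_inv, hfa, hfb', hνs, mul_inv_cancel]
    · show f (b (FreeGroup.of yj.1) * a (φN (FreeGroup.of yj.2)) * (b (FreeGroup.of yj.1))⁻¹ *
        (a (c1 yj.1 yj.2))⁻¹) = 1
      rw [map_mul, map_mul, map_mul, map_inv, map_inv, hfa, hfa, hfb', hc1s, mul_inv_cancel]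
    · show f ((b (FreeGroup.of yj.1))⁻¹ * a (φN (FreeGroup.of yj.2)) * b (FreeGroup.of yj.1) *
        (a (c2 yj.1 yj.2))⁻¹) = 1
      rw [map_mul, map_mul, map_mul, map_inv, map_inv, hfa, hfa, hfb', hc2s, mul_inv_cancel]
  have hamem : ∀ n, a n ∈ a.range ⊔ K := fun n => (le_sup_left : a.range ≤ a.range ⊔ K) ⟨n, rfl⟩
  have hKmem : ∀ k ∈ K, k ∈ a.range ⊔ K := fun k hk => (le_sup_right : K ≤ a.range ⊔ K) hk
  have hM : (a.range ⊔ K).Normal := by
    refine fpExt_normal φN hφN a b hgen K ?_ ?_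
    · intro y j
      have h1 : t2 (y, j) ∈ K := hTK (Or.inr (Or.inl ⟨(y, j), rfl⟩))
      have h2 : b (FreeGroup.of y) * a (φN (FreeGroup.of j)) * (b (FreeGroup.of y))⁻¹
          = t2 (y, j) * a (c1 y j) := by
        show _ = b (FreeGroup.of y) * a (φN (FreeGroup.of j)) * (b (FreeGroup.of y))⁻¹ *
          (a (c1 y j))⁻¹ * a (c1 y j)
        rw [inv_mul_cancel_right]
      rw [h2]
      exact mul_mem (hKmem _ h1) (hamem _)
    · intro y j
      have h1 : t3 (y, j) ∈ K := hTK (Or.inr (Or.inr ⟨(y, j), rfl⟩))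
      have h2 : (b (FreeGroup.of y))⁻¹ * a (φN (FreeGroup.of j)) * b (FreeGroup.of y)
          = t3 (y, j) * a (c2 y j) := by
        show _ = (b (FreeGroup.of y))⁻¹ * a (φN (FreeGroup.of j)) * b (FreeGroup.of y) *
          (a (c2 y j))⁻¹ * a (c2 y j)
        rw [inv_mul_cancel_right]
      rw [h2]
      exact mul_mem (hKmem _ h1) (hamem _)
  have hker : ∀ w, φQ w = 1 → b w ∈ a.range ⊔ K := by
    have hle : φQ.ker ≤ (a.range ⊔ K).comap b := by
      rw [← hS']
      have : ((a.range ⊔ K).comap b).Normal := hM.comap b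
      refine Subgroup.normalClosure_le_normal ?_
      intro s hs
      show b s ∈ a.range ⊔ K
      have h1 : t1 ⟨s, hs⟩ ∈ K := hTK (Or.inl ⟨⟨s, hs⟩, rfl⟩)
      have h2 : b s = t1 ⟨s, hs⟩ * a (ν ⟨s, hs⟩) := by
        show _ = b s * (a (ν ⟨s, hs⟩))⁻¹ * a (ν ⟨s, hs⟩)
        rw [inv_mul_cancel_right]
      rw [h2]
      exact mul_mem (hKmem _ h1) (hamem _)
    intro w hw
    exact hle hw
  have hkerle : f.ker ≤ K := fpExt_ker_le i p hi hpi a b f φQ hfa hfb hgen K hM hker hK
  exact Group.IsFinitelyPresented.of_surjective f hsurj ⟨T, hTfin, le_antisymm hK hkerle⟩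

/-- G1 for a map to a finite group (not nec. onto). -/
theorem fp_of_exact_finite {N : Type u} {G : Type v} {Q : Type w} [Group N] [Group G] [Group Q]
    [Group.IsFinitelyPresented N] [Finite Q]
    (i : N →* G) (p : G →* Q) (hi : Function.Injective i)
    (hex : i.range = p.ker) : Group.IsFinitelyPresented G := by
  have : Group.IsFinitelyPresented p.range := inferInstance
  refine fp_of_exact i p.rangeRestrict hi p.rangeRestrict_surjective ?_
  rw [hex, MonoidHom.ker_rangeRestrict]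

end Claimed.Agent.R152.B
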