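/-
Row 152, module B.  Blueprint `origin/helper22:docs/R152_B.md` sec. 1, item G2.
-/
import Claimed.Agent.R152.B.FpExt

set_option autoImplicit false

namespace Claimed.Agent.R152.B

universe u v w

/-- G2: products.  (Use `fp_of_exact` with `MonoidHom.inl`, `MonoidHom.snd`.) -/
theorem fp_prod {G : Type u} {H : Type v} [Group G] [Group H]
    [Group.IsFinitelyPresented G] [Group.IsFinitelyPresented H] :
    Group.IsFinitelyPresented (G × H) := by
  refine fp_of_exact (MonoidHom.inl G H) (MonoidHom.snd G H) ?_ ?_ ?_
  · intro a b h
    simpa using congrArg Prod.fst h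
  · intro h
    exact ⟨(1, h), rfl⟩
  · ext ⟨a, b⟩
    simp only [MonoidHom.mem_range, MonoidHom.inl_apply, MonoidHom.mem_ker, MonoidHom.coe_snd,
      Prod.mk.injEq]
    constructor
    · rintro ⟨x, -, h⟩
      exact h.symm
    · intro h
      exact ⟨a, rfl, h.symm⟩

/-- auxiliary form of `fp_pi`, with the index type as an explicit argument (for the induction). -/
theorem fp_pi_aux (G : Type u) [Group G] [Group.IsFinitelyPresented G] (ι : Type v) [Finite ι] :
    Group.IsFinitelyPresented (ι → G) := by
  refine Finite.induction_empty_option (P := fun ι => Group.IsFinitelyPresented (ι → G))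
    ?_ ?_ ?_ ι
  · intro α β e h
    exact Group.IsFinitelyPresented.equiv (MulEquiv.arrowCongr e (MulEquiv.refl G))
  · infer_instance
  · intro α _ h
    have h2 : Group.IsFinitelyPresented (G × (α → G)) := fp_prod
    let e : (G × (α → G)) ≃* (Option α → G) :=
      { toFun := fun p o => Option.elim o p.1 p.2
        invFun := fun f => (f none, fun a => f (some a))
        left_inv := fun p => rfl
        right_inv := fun f => by
          funext o
          cases o <;> rfl
        map_mul' := fun p q => by
          funext o
          cases o <;> rfl }
    exact Group.IsFinitelyPresented.equiv e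

/-- G2: finite powers.  (Induction, e.g. `Finite.induction_empty_option`, with `fp_prod` and
`Group.IsFinitelyPresented.equiv`.) -/
theorem fp_pi {ι : Type v} [Finite ι] {G : Type u} [Group G] [Group.IsFinitelyPresented G] :
    Group.IsFinitelyPresented (ι → G) :=
  fp_pi_aux G ι

end Claimed.Agent.R152.B
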